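import Mathlib

/-!
# Second layer: common definitions

`d > 0` squarefree.  The curve is `y² = x (x - 16 d) (x - 25 d)`.
-/

namespace Vale.Agent.P017.L2

/-- a symbol with the formal properties of the Hilbert symbol of a local field -/
structure HS (k : Type*) [Field k] where
  /-- the symbol -/
  h : k → k → ℤ
  pm : ∀ a b, a ≠ 0 → b ≠ 0 → h a b = 1 ∨ h a b = -1
  symm : ∀ a b, h a b = h b a
  mul : ∀ a b c, a ≠ 0 → b ≠ 0 → c ≠ 0 → h (a * b) c = h a c * h b c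
  norm : ∀ a b x y, a ≠ 0 → b ≠ 0 → a = x ^ 2 - b * y ^ 2 → h a b = 1

/-- `1` at the integers `3` modulo `4` -/
def e4 (a : ℤ) : ℕ := if a % 4 = 3 then 1 else 0

/-- `1` at the integers `3, 5` modulo `8` -/
def o8 (a : ℤ) : ℕ := if a % 8 = 3 ∨ a % 8 = 5 then 1 else 0

/-- the symbols of the completions of `ℚ` -/
structure HSys where
  hQ : ∀ (p : ℕ) [Fact p.Prime], HS ℚ_[p]
  hR : HS ℝ
  pos : ∀ a b : ℝ, 0 < a → b ≠ 0 → hR.h a b = 1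
  neg : ∀ a b : ℝ, a < 0 → b < 0 → hR.h a b = -1
  /-- explicit values at `2` -/
  two : ∀ (i j : ℕ) (u w : ℤ), u % 2 = 1 → w % 2 = 1 →
    (hQ 2).h (((2 : ℤ) ^ i * u : ℤ) : ℚ_[2]) (((2 : ℤ) ^ j * w : ℤ) : ℚ_[2]) =
      (-1) ^ (e4 u * e4 w + i * o8 w + j * o8 u)
  /-- explicit values at an odd prime -/
  odd : ∀ (p : ℕ) [Fact p.Prime], p ≠ 2 → ∀ (i j : ℕ) (u w : ℤ), ¬ (p : ℤ) ∣ u → ¬ (p : ℤ) ∣ w →
    (hQ p).h (((p : ℤ) ^ i * u : ℤ) : ℚ_[p]) (((p : ℤ) ^ j * w : ℤ) : ℚ_[p]) =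
      jacobiSym (-1) p ^ (i * j) * jacobiSym u p ^ j * jacobiSym w p ^ i
  /-- the symbol with a unit -/
  val : ∀ (p : ℕ) [Fact p.Prime], p ≠ 2 → ∀ (a : ℚ_[p]) (b : ℤ), a ≠ 0 → ¬ (p : ℤ) ∣ b →
    (hQ p).h a (b : ℚ_[p]) = if Even a.valuation then 1 else jacobiSym b p
  /-- the product formula -/
  prod : ∀ (a b : ℚ), a ≠ 0 → b ≠ 0 → ∀ T : Finset ℕ, (∀ p ∈ T, p.Prime) →
    (∀ (p : ℕ) [Fact p.Prime], p ∉ T → (hQ p).h (a : ℚ_[p]) (b : ℚ_[p]) = 1) →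
    (∏ p ∈ T, (if hp : p.Prime then haveI := Fact.mk hp; (hQ p).h (a : ℚ_[p]) (b : ℚ_[p]) else 1)) *
      hR.h (a : ℝ) (b : ℝ) = 1

section torsors

variable {k : Type*} [Field k]

/-- the torsor of the class `(1, u, u)` -/
def DU (u d M A B E : k) : Prop :=
  M ^ 2 - u * B ^ 2 = 25 * d * E ^ 2 ∧ M ^ 2 - u * A ^ 2 = 16 * d * E ^ 2

/-- the torsor of the class `(v, v, 1)` -/
def DV (v d M A B E : k) : Prop :=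
  v * M ^ 2 - B ^ 2 = 25 * d * E ^ 2 ∧ v * A ^ 2 - B ^ 2 = 9 * d * E ^ 2

/-- the torsor of the class `(v, u v, u)` -/
def DUV (u v d M A B E : k) : Prop :=
  v * M ^ 2 - u * B ^ 2 = 25 * d * E ^ 2 ∧ v * M ^ 2 - u * v * A ^ 2 = 16 * d * E ^ 2

/-- the function whose symbol with `v` gives the pairing; `(p, q, t)` is a point of the conic
`p² - u q² = d t²` -/
def ff (u d p q t M A B E : k) : k := u * (A - B) * (p * M - u * q * B - 5 * d * t * E)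

/-- `u` is in the image over `k` -/
def LU (k : Type*) [Field k] (u d : k) : Prop :=
  ∃ M A B E : k, ¬ (M = 0 ∧ A = 0 ∧ B = 0 ∧ E = 0) ∧ DU u d M A B E

/-- `v` is in the image over `k` -/
def LV (k : Type*) [Field k] (v d : k) : Prop :=
  ∃ M A B E : k, ¬ (M = 0 ∧ A = 0 ∧ B = 0 ∧ E = 0) ∧ DV v d M A B E

/-- `u v` is in the image over `k` -/
def LUV (k : Type*) [Field k] (u v d : k) : Prop :=
  ∃ M A B E : k, ¬ (M = 0 ∧ A = 0 ∧ B = 0 ∧ E = 0) ∧ DUV u v d M A B E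

end torsors

/-- a primitive integral point of the conic `p² - u q² = d t²` -/
structure Pt (d u : ℤ) where
  p : ℤ
  q : ℤ
  t : ℤ
  eq : p ^ 2 - u * q ^ 2 = d * t ^ 2
  prim : ∀ l : ℕ, l.Prime → ¬ ((l : ℤ) ∣ p ∧ (l : ℤ) ∣ q ∧ (l : ℤ) ∣ t)

/-- local points of `DU` at the primes dividing `30 d` -/
structure LP (d u : ℤ) (P : Pt d u) where
  M : ∀ (p : ℕ) [Fact p.Prime], ℚ_[p]
  A : ∀ (p : ℕ) [Fact p.Prime], ℚ_[p]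
  B : ∀ (p : ℕ) [Fact p.Prime], ℚ_[p]
  E : ∀ (p : ℕ) [Fact p.Prime], ℚ_[p]
  du : ∀ (p : ℕ) [Fact p.Prime], (p : ℤ) ∣ 30 * d → DU (u : ℚ_[p]) (d : ℚ_[p]) (M p) (A p) (B p) (E p)
  ne : ∀ (p : ℕ) [Fact p.Prime], (p : ℤ) ∣ 30 * d →
    ff (u : ℚ_[p]) (d : ℚ_[p]) P.p P.q P.t (M p) (A p) (B p) (E p) ≠ 0

variable (S : HSys)

/-- the local value -/
noncomputable def LP.loc {d u : ℤ} {P : Pt d u} (L : LP d u P) (v : ℤ) (p : ℕ) [Fact p.Prime] : ℤ :=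
  (S.hQ p).h (ff (u : ℚ_[p]) (d : ℚ_[p]) P.p P.q P.t (L.M p) (L.A p) (L.B p) (L.E p)) (v : ℚ_[p])

/-- the value of the pairing of `u` and `v` -/
noncomputable def LP.val {d u : ℤ} {P : Pt d u} (L : LP d u P) (v : ℤ) : ℤ :=
  ∏ p ∈ (30 * d).natAbs.primeFactors, if hp : p.Prime then haveI := Fact.mk hp; L.loc S v p else 1

/-- the arithmetic hypotheses on `d, u, v` -/
structure Dat (d u v : ℤ) : Prop where
  hd : 0 < d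
  sd : Squarefree d
  su : Squarefree u
  sv : Squarefree v
  hv : 0 < v
  du : ∀ p : ℕ, p.Prime → (p : ℤ) ∣ u → (p : ℤ) ∣ 30 * d
  dv : ∀ p : ℕ, p.Prime → (p : ℤ) ∣ v → (p : ℤ) ∣ 30 * d
  lu : ∀ (p : ℕ) [Fact p.Prime], (p : ℤ) ∣ 30 * d → LU ℚ_[p] (u : ℚ_[p]) (d : ℚ_[p])
  lv : ∀ (p : ℕ) [Fact p.Prime], (p : ℤ) ∣ 30 * d → LV ℚ_[p] (v : ℚ_[p]) (d : ℚ_[p])
  u1 : ¬ IsSquare (u : ℚ)
  u2 : ¬ IsSquare (-(u * d) : ℚ)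
  v1 : ¬ IsSquare (v : ℚ)
  v2 : ¬ IsSquare (v * d : ℚ)

/-! ## The modules -/

/-- **M1b** Hasse principle for conics -/
def StHasse : Prop := ∀ a b : ℚ, a ≠ 0 → b ≠ 0 →
  (∀ (p : ℕ) [Fact p.Prime], (S.hQ p).h (a : ℚ_[p]) (b : ℚ_[p]) = 1) → S.hR.h (a : ℝ) (b : ℝ) = 1 →
  ∃ x y z : ℚ, ¬ (x = 0 ∧ y = 0 ∧ z = 0) ∧ x ^ 2 - a * y ^ 2 = b * z ^ 2

/-- **M1c** Legendre's theorem with bounds -/
def StLeg : Prop := ∀ A B : ℕ, Squarefree A → Squarefree B → A.Coprime B → 1 < A → 1 < B →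
  IsSquare ((A : ℕ) : ZMod B) → IsSquare ((B : ℕ) : ZMod A) →
  ∃ X Y Z : ℤ, X ^ 2 - A * Y ^ 2 = B * Z ^ 2 ∧
    (∀ l : ℕ, l.Prime → ¬ ((l : ℤ) ∣ X ∧ (l : ℤ) ∣ Y ∧ (l : ℤ) ∣ Z)) ∧
    X ^ 2 ≤ 4 * A ^ 2 * B ∧ Y ^ 2 ≤ 4 * A * B ∧ Z ^ 2 ≤ A ^ 2

/-- **M3a** points exist -/
def StEx : Prop := ∀ d u v : ℤ, Dat d u v → ∃ P : Pt d u, Nonempty (LP d u P)

/-- **M3b** the value does not depend on the local point -/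
def StInd : Prop := ∀ (p : ℕ) [Fact p.Prime] (u d v a b t M A B E M' A' B' E' : ℚ_[p]),
  u ≠ 0 → d ≠ 0 → v ≠ 0 → a ^ 2 - u * b ^ 2 = d * t ^ 2 → LV ℚ_[p] v d →
  DU u d M A B E → DU u d M' A' B' E' →
  ff u d a b t M A B E ≠ 0 → ff u d a b t M' A' B' E' ≠ 0 →
  (S.hQ p).h (ff u d a b t M A B E) v = (S.hQ p).h (ff u d a b t M' A' B' E') v

/-- **M3c** a global point makes the pairing trivial -/
def StHit : Prop := ∀ (d u v : ℤ), Dat d u v → ∀ (P : Pt d u) (L : LP d u P),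
  LU ℚ (u : ℚ) (d : ℚ) ∨ LV ℚ (v : ℚ) (d : ℚ) ∨ LUV ℚ (u : ℚ) (v : ℚ) (d : ℚ) → L.val S v = 1

/-- **M4** the relation for four corners `(aᵢ, bⱼ)`; `n` contains the other prime factors.
`s p` is a square root of `a₀ a₁` in `ℚ_p` -/
def StCorner : Prop := ∀ (a b : Fin 2 → ℕ) (n : ℕ) (u v X Y Z : ℤ),
  (∀ i, (a i).Prime) → (∀ j, (b j).Prime) → a 0 ≠ a 1 → b 0 ≠ b 1 → (∀ i j, a i ≠ b j) →
  (∀ i, ¬ a i ∣ 30 * n) → (∀ j, ¬ b j ∣ 30 * n) →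
  (∀ i j, Dat (a i * b j * n) (a i * u) v) →
  (∀ p : ℕ, p.Prime → (p : ℤ) ∣ u * v → p ∣ 30 * n) →
  (∀ (p : ℕ) [Fact p.Prime], p ∣ 30 * n → IsSquare ((a 0 * a 1 : ℕ) : ℚ_[p]) ∧
    IsSquare ((b 0 * b 1 : ℕ) : ℚ_[p])) →
  (∀ i, jacobiSym v (a i) = 1) → (∀ j, jacobiSym v (b j) = 1) →
  X ^ 2 - (a 0 * a 1) * Y ^ 2 = (b 0 * b 1) * Z ^ 2 →
  (∀ l : ℕ, l.Prime → ¬ ((l : ℤ) ∣ X ∧ (l : ℤ) ∣ Y ∧ (l : ℤ) ∣ Z)) → (X, Y, Z) ≠ 0 →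
  ∀ (P : ∀ i j, Pt (a i * b j * n) (a i * u)) (L : ∀ i j, LP (a i * b j * n) (a i * u) (P i j))
    (s : ∀ (p : ℕ) [Fact p.Prime], ℚ_[p]),
  (∀ (p : ℕ) [Fact p.Prime], p ∣ 30 * n → (s p) ^ 2 = ((a 0 * a 1 : ℕ) : ℚ_[p])) →
  ∏ i, ∏ j, (L i j).val S v =
    ∏ p ∈ (30 * n).primeFactors, if hp : p.Prime then
      haveI := Fact.mk hp; (S.hQ p).h (X + Y * s p) (v : ℚ_[p]) else 1

end Vale.Agent.P017.L2
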