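import Mathlib

/-!
# Second layer: the large sieve for the symbols `(X + V √A / y)`
-/

namespace Vale.Agent.P017.L2

open Finset

open Classical in
/-- **M5** the large sieve -/
def StLS : Prop := ∃ C : ℝ, 0 < C ∧ ∀ (A B2 Y : ℕ) (Bs Ys : Finset ℕ) (Ps : Finset (ℕ × ℕ))
  (X V Z : ℕ × ℕ → ℤ) (t : ℕ → ℤ) (w : ℕ → ℝ) (τ : ℤ),
  1 < A → Squarefree A → 1 ≤ Y →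
  (∀ b ∈ Bs, b.Prime ∧ b % 2 = 1 ∧ A < b ∧ b ≤ B2) → (∀ b ∈ Bs, ∀ b' ∈ Bs, b % 8 = b' % 8) →
  (∀ y ∈ Ys, y.Prime ∧ y ≤ Y ∧ 4 * A ^ 2 * B2 ^ 2 < y) → (∀ y ∈ Ys, ∀ y' ∈ Ys, y % 8 = y' % 8) →
  (∀ y ∈ Ys, (y : ℤ) ∣ t y ^ 2 - A) → (∀ y, |w y| ≤ 1) →
  (∀ P ∈ Ps, P.1 ∈ Bs ∧ P.2 ∈ Bs ∧ P.1 ≠ P.2 ∧
    X P ^ 2 - A * V P ^ 2 = (P.1 * P.2 : ℕ) * Z P ^ 2 ∧ Z P ≠ 0 ∧ Z P ^ 2 ≤ A ^ 2 ∧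
    ∀ l : ℕ, l.Prime → ¬ ((l : ℤ) ∣ X P ∧ (l : ℤ) ∣ V P ∧ (l : ℤ) ∣ Z P)) →
  ∑ P ∈ Ps, |∑ y ∈ Ys.filter (fun y => jacobiSym P.1 y = τ ∧ jacobiSym P.2 y = τ),
      w y * (jacobiSym (X P + V P * t y) y : ℝ)| ≤
    C * A ^ 2 * Bs.card * √(Y * (Y + B2 ^ 10 * √(Y * A)))

end Vale.Agent.P017.L2
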